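import Vale.Agent.P305GL.Defs
import Vale.Agent.P305EV.Mark

/-!
# The keys of the arcs that leave a set of nodes
-/

namespace Vale.Agent.P305KY

open Vale.Agent.P305E Vale.Agent.P305GL Vale.Agent.P305EV

/-- The possible keys of the arcs with the outer vertex `u`. -/
def kf (p : Pr) (s : S) (u : ℕ) : List ℕ := (p.adj.get u).map fun w => 3 * s.own.get w + p.idx w u

/-- The program. -/
def keysP (p : Pr) (s : S) (Ps Ys : List ℕ) : M (List ℕ) := do
  let us ← flat s.mem Ps
  let mp ← mark (Arr.const false) Ps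
  let my ← mark (Arr.const false) Ys
  let ks ← mapM' (fun u => mapM' (fun w => num (3 * s.own.get w + p.idx w u)) (p.adj.get u)) us
  let l ← flattenP ks
  let l' ← filterP (fun k => mp.1.get (s.ns.tl.get k) && !my.1.get (k / 3)) l
  let r ← mark (Arr.const false) l'
  pure r.2

theorem impl_keysP : Impl fun p : Pr × S × List ℕ × List ℕ =>
    keysP p.1 p.2.1 p.2.2.1 p.2.2.2 := by
  unfold keysP
  fun_prop

theorem eq_map {α γ : Type} {f : α → γ} {l : List α} {l' : List γ}
    (h : List.Forall₂ (fun x y => y = f x) l l') : l' = l.map f := by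
  induction h with
  | nil => rfl
  | cons h _ ih => simp [h, ih]

theorem nbr_idx {p : Pr} {w i : ℕ} (h : (p.adj.get w).Nodup) (hi : i < p.deg w) :
    p.nbr w i ∈ p.adj.get w ∧ p.idx w (p.nbr w i) = i := by
  unfold Pr.idx Pr.nbr
  unfold Pr.deg at hi
  rcases e : p.adj.get w with _ | ⟨a, _ | ⟨b, _ | ⟨c, l⟩⟩⟩ <;> rw [e] at h hi <;>
    simp only [List.isEmpty_nil, List.isEmpty_cons, List.tail_cons, List.tail_nil, if_true,
      Bool.false_eq_true, if_false] at hi
  · omega
  · obtain rfl : i = 0 := by omega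
    simp
  · have : a ≠ b := by simpa using h
    rcases (by omega : i = 0 ∨ i = 1) with rfl | rfl <;> simp [this]
  · have h1 : a ≠ b := fun q => by simp [q] at h
    have h2 : a ≠ c := fun q => by simp [q] at h
    have h3 : b ≠ c := fun q => by simp [q] at h
    rcases (by omega : i = 0 ∨ i = 1 ∨ i = 2) with rfl | rfl | rfl <;> simp [h1, h2, h3]

theorem idx_le (p : Pr) (w u : ℕ) : p.idx w u ≤ 2 := by
  unfold Pr.idx
  split_ifs <;> omega

theorem keys : KEYS := by
  intro β _ E
  refine ⟨keysP, impl_keysP, fun x s g cur Nw Ps Ys hx h _ hP => ?_⟩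
  have a1 : (Ps.flatMap s.mem.get).length = (Ps.map s.sz.get).sum := by
    rw [List.length_flatMap]
    exact congrArg List.sum (List.map_congr_left fun p hp => (h.mem p (Or.inr (hP p hp))).2.2.symm)
  have a2 : Ps.length ≤ (Ps.map s.sz.get).sum := by
    have := List.card_nsmul_le_sum (Ps.map s.sz.get) 1 fun y hy => by
      obtain ⟨p, hp, rfl⟩ := List.mem_map.1 hy
      obtain ⟨-, b1, b2⟩ := h.mem p (Or.inr (hP p hp))
      rw [b2]
      exact List.length_pos_of_mem ((b1 _).2 (h.self p (Or.inr (hP p hp))).1)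
    simpa using this
  have a3 : ∀ w, 3 * s.own.get w + 2 ≤ x.B := fun w => by
    have b1 : 2 ^ x.b ≤ 4 ^ (x.b + 2) :=
      (Nat.pow_le_pow_left (by omega) _).trans (Nat.pow_le_pow_right (by omega) (by omega))
    have b2 : 4 ^ 1 ≤ 4 ^ (x.b + 2) := Nat.pow_le_pow_right (by omega) (by omega)
    have b3 := hx.wd
    by_cases q : s.own.get w = 0
    · omega
    · rcases (h.own w q).2.1 with q | q
      · have := h.net.ok.ltI _ q; omega
      · have := h.net.ok.ltP _ q; omega
  have a4 := length_flat_le (f := kf x.toPr s) (g := 3)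
    (fun u => by simpa [kf] using hx.adj.deg u) (Ps.flatMap s.mem.get)
  simp only [keysP, Tri_bind, Tri_flat, Tri_mark]
  refine (Tri.mapM' (P := fun u l => l = kf x.toPr s u) (T := fun _ => 6) fun u _ => ?_).mono
    fun ks t hk => ?_
  · refine (Tri.mapM' (P := fun w k => k = 3 * s.own.get w + x.idx w u) (T := fun _ => 0)
      fun w _ => ?_).mono fun l t hl => ⟨eq_map hl.1, ?_⟩
    · have := a3 w
      have := idx_le x.toPr w u
      exact ⟨by change _ ≤ x.B; omega, rfl, le_rfl⟩
    · have := hl.2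
      have := hx.adj.deg u
      simp only [List.map_const', List.sum_replicate, smul_eq_mul] at *
      omega
  · obtain ⟨e, ht⟩ := hk
    obtain rfl := eq_map e
    have mp := mk_mkF (Arr.const false) Ps
    have my := mk_mkF (Arr.const false) Ys
    simp only [Tri_flattenP, Tri_filterP, Tri_pure, ← List.flatMap_def, List.length_map]
    generalize hl : List.filter _ _ = l'
    have mk := mk_mkF (Arr.const false) l'
    have b1 : l'.length ≤ ((Ps.flatMap s.mem.get).flatMap (kf x.toPr s)).length :=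
      hl ▸ List.length_filter_le _ _
    have b2 := mk.len
    simp only [List.map_const', List.sum_replicate, smul_eq_mul] at ht
    refine ⟨⟨mk.nodup, fun k => ?_⟩, by omega, by omega⟩
    have c1 : ∀ y, (mkF (Arr.const false) Ps).1.get y = true ↔ y ∈ Ps := by simp [mp.get]
    have c2 : ∀ y, (mkF (Arr.const false) Ys).1.get y = false ↔ y ∉ Ys := fun y => by
      rw [← Bool.not_eq_true, my.get]; simp
    rw [mk.mem, ← hl]
    simp only [List.mem_filter, Bool.and_eq_true, Bool.not_eq_true', c1, c2, h.net.tl,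
      List.mem_toFinset, Arr.get_const, and_true]
    refine ⟨fun q => q.2, fun q => ⟨?_, q⟩⟩
    have d1 := hP _ q.1
    have d2 : g.V.tl k ≠ 0 := fun e => h.net.ok.zP (e ▸ d1)
    obtain ⟨d3, d4⟩ := h.arc k d2
    obtain ⟨d5, d6⟩ := nbr_idx (p := x.toPr) (hx.adj.nodup _) d3
    have d7 := (h.self _ (Or.inl (h.net.ok.arc k d2).2)).1
    refine List.mem_flatMap.2 ⟨s.nb x.toPr k, List.mem_flatMap.2 ⟨_, q.1,
      ((h.mem _ (Or.inr d1)).2.1 _).2 d4⟩, List.mem_map.2 ⟨s.vn (k / 3),
        (hx.adj.mem _ _).2 (hx.adj.gr.symm ((hx.adj.mem _ _).1 d5)), ?_⟩⟩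
    rw [d7, S.nb, d6]
    omega

end Vale.Agent.P305KY
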